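import Crest.Agent.X212.Std94.Kl
import Crest.Agent.X212.Std94.Gau
import Crest.Agent.X212.Pj41.Md

-- ▼ part X212/Std94/Loc0
section

/-! Local smooth intertwiners; the standard module in given frames. -/

set_option linter.unusedSectionVars false
noncomputable section
namespace Crest.Agent.X212.Std94
open Quaternion Module Finset Wz78 Filter
open scoped Manifold ContDiff Topology InnerProductSpace

variable {V V' L : Type} [NormedAddCommGroup V] [InnerProductSpace ℝ V] [FiniteDimensional ℝ V]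
  [NormedAddCommGroup V'] [InnerProductSpace ℝ V'] [FiniteDimensional ℝ V']
  [NormedAddCommGroup L] [InnerProductSpace ℝ L] [FiniteDimensional ℝ L]
  {ι : Type} [Fintype ι]

section pt
variable {P : ι → ι → ℝ} {l il : L →L[ℝ] L} {p J : V →L[ℝ] V} {ρ : ι → V →L[ℝ] V}
  {j : L →L[ℝ] V →L[ℝ] V} {p' J' : V' →L[ℝ] V'} {ρ' : ι → V' →L[ℝ] V'}
  {j' : L →L[ℝ] V' →L[ℝ] V'} {U : Fin 4 → ι → ℝ} {s₀ : L}

theorem Itw.smul {A : V →L[ℝ] V'} (i : Itw p J ρ j p' J' ρ' j' A) (t : ℝ) :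
    Itw p J ρ j p' J' ρ' j' (t • A) :=
  ⟨fun y => by simp [i.pl], fun y => by simp [i.pr], fun a y => by simp [i.ρ],
    fun y => by simp [i.J], fun s y => by simp [i.j]⟩

/-- intertwiners are conformal -/
theorem Itw.inner (h : PM P l il p J ρ j) (h' : PM P l il p' J' ρ' j') (hU : ON P U)
    (hs₀ : LF l il s₀) {A : V →L[ℝ] V'} (i : Itw p J ρ j p' J' ρ' j' A) (y z : V) :
    ⟪A y, A z⟫_ℝ = hs A A / 16 * ⟪y, p z⟫_ℝ := by
  obtain ⟨u, hu⟩ := h.exists_frm hU hs₀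
  obtain ⟨u', hu'⟩ := h'.exists_frm hU hs₀
  obtain ⟨c, rfl⟩ := (itw_iff_Xi h h' hU hs₀ hu hu' A).1 i
  rw [inner_Xi, Xi_Xi, star_mul_self, hu.Xi_coe (h.q4 hU hs₀), hs_Xi, Quaternion.inner_self,
    smul_apply, real_inner_smul_right]
  ring

theorem Itw.onto (h : PM P l il p J ρ j) (h' : PM P l il p' J' ρ' j') (hU : ON P U)
    (hs₀ : LF l il s₀) {A : V →L[ℝ] V'} (i : Itw p J ρ j p' J' ρ' j' A) (h0 : hs A A ≠ 0)
    (z : V') : ∃ y, A y = p' z := by
  obtain ⟨u, hu⟩ := h.exists_frm hU hs₀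
  obtain ⟨u', hu'⟩ := h'.exists_frm hU hs₀
  obtain ⟨c, rfl⟩ := (itw_iff_Xi h h' hU hs₀ hu hu' A).1 i
  have c0 : c ≠ 0 := by rintro rfl; rw [hs_Xi] at h0; simp at h0
  exact ⟨Xi u u' c⁻¹ z, by rw [Xi_Xi, mul_inv_cancel₀ c0, hu'.Xi_one (h'.q4 hU hs₀)]⟩

/-- the real structures of the standard module in the frame `s₀` -/
def j0 (il : L →L[ℝ] L) (s₀ : L) : L →L[ℝ] S4 →L[ℝ] S4 :=
  (innerSL ℝ s₀).smulRight k0 + (innerSL ℝ (il s₀)).smulRight (J0 * k0)

theorem j0_apply (il : L →L[ℝ] L) (s₀ s : L) (y : S4) :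
    j0 il s₀ s y = ⟪s₀, s⟫_ℝ • k0 y + ⟪il s₀, s⟫_ℝ • J0 (k0 y) := rfl

theorem ON.UP (hU : ON P U) (i : Fin 4) (a : ι) : ∑ b, P a b * U i b = U i a := by
  simp only [← hU.P, sum_mul, mul_assoc]
  rw [sum_comm]
  simp [← mul_sum, hU.on]

theorem r0_tq (U : Fin 4 → ι → ℝ) (a : ι) : r0 (tq U a) = ∑ i, U i a • r0 (qe i) :=
  ContinuousLinearMap.ext fun y => by
    simp only [tq_eq, Fin.sum_univ_four, r0_add, r0_smul, add_apply, smul_apply]

theorem ON.fr_std (hU : ON P U) (i : Fin 4) : fr U (fun a => r0 (tq U a)) i = r0 (qe i) := by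
  refine ContinuousLinearMap.ext fun y => ?_
  simp only [fr, r0_tq, _root_.sum_apply, smul_apply, smul_sum, smul_smul]
  rw [sum_comm]
  simp [← sum_smul, hU.on]

theorem PL.inner_il (h : PL l il) (s : L) : ⟪il s, s⟫_ℝ = 0 := by
  have := h.sk s s
  rw [real_inner_comm (il s) s] at this
  linarith

theorem j0_self (h : PL l il) (hs : LF l il s₀) : j0 il s₀ s₀ = k0 :=
  ContinuousLinearMap.ext fun y => by simp [j0_apply, h.inner_il, hs.n1]

/-- the standard module in the frames `U`, `s₀` -/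
theorem pm_std (hU : ON P U) (h : PL l il) (hs : LF l il s₀) :
    PM P l il 1 J0 (fun a => r0 (tq U a)) (j0 il s₀) := by
  have ii : ∀ s, il (il s) = -s := fun s => congrArg (fun T : L →L[ℝ] L => T s) h.sq
  have lt : l (il s₀) = il s₀ := by
    have := congrArg (fun T : L →L[ℝ] L => T s₀) h.comm
    simp only [mul_apply_eq_comp, hs.ls] at this
    exact this.symm
  refine ⟨ContinuousLinearMap.ext J0_J0, inner_J0, fun _ _ => rfl, one_mul _, ?_, by simp,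
    ⟨fun a b => ContinuousLinearMap.ext fun y => ?_, fun _ => one_mul _, fun _ => mul_one _,
      fun a => ?_⟩, fun a => inner_r0 _, fun a => ContinuousLinearMap.ext fun y => (r0_J0 _ y).symm,
    fun s v w => ?_, fun s => ContinuousLinearMap.ext fun y => ?_,
    fun s => ContinuousLinearMap.ext fun y => ?_, fun s => ContinuousLinearMap.ext fun y => ?_,
    fun s => ContinuousLinearMap.ext fun y => ?_, fun _ => one_mul _,
    fun a s => ContinuousLinearMap.ext fun y => ?_⟩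
  · change LinearMap.trace ℝ S4 LinearMap.id = _
    rw [LinearMap.trace_id, finrank_S4]; norm_num
  · have e := r0_r0 (tq U a) (tq U b) y
    have n : ⟪tq U a, tq U b⟫_ℝ = P a b := by
      rw [inner_q, ← hU.P, Fin.sum_univ_four]; rfl
    rw [n] at e
    exact e
  · refine ContinuousLinearMap.ext fun y => ?_
    simp only [r0_tq, _root_.sum_apply, smul_apply, smul_sum, smul_smul]
    rw [sum_comm]
    simp only [← sum_smul, hU.UP]
  · simp only [j0_apply, inner_add_left, inner_add_right, real_inner_smul_left,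
      real_inner_smul_right, inner_J0, inner_k0, k0_J0, inner_neg_right, neg_neg]
  · simp only [mul_apply_eq_comp, neg_apply, j0_apply, k0_J0, map_neg, map_add, map_smul]
    module
  · have a1 : ⟪s₀, il s⟫_ℝ = -⟪il s₀, s⟫_ℝ := by rw [h.sk, neg_neg]
    have a2 : ⟪il s₀, il s⟫_ℝ = ⟪s₀, s⟫_ℝ := by rw [h.sk, ii, inner_neg_right, neg_neg]
    simp only [mul_apply_eq_comp, j0_apply, a1, a2, map_add, map_smul, J0_J0]
    module
  · simp only [j0_apply, ← h.sym, hs.ls, lt]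
  · have n : ‖l s‖ ^ 2 = ⟪s₀, s⟫_ℝ ^ 2 + ⟪il s₀, s⟫_ℝ ^ 2 := by
      have o := h.inner_il s₀
      have o' : ⟪s₀, il s₀⟫_ℝ = 0 := by rw [real_inner_comm, o]
      have n1 : ⟪s₀, s₀⟫_ℝ = 1 := by simp [hs.n1]
      have n2 : ⟪il s₀, il s₀⟫_ℝ = 1 := by simp [hs.n2]
      rw [hs.dec, ← real_inner_self_eq_norm_sq]
      simp only [inner_add_left, inner_add_right, real_inner_smul_left, real_inner_smul_right, o,
        o', n1, n2]
      ring
    simp only [mul_apply_eq_comp, j0_apply, n, map_add, map_smul, k0_J0, k0_k0, map_neg, J0_J0,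
      smul_apply, one_apply_eq_self]
    module
  · simp only [mul_apply_eq_comp, j0_apply, map_add, map_smul, k0_r0, r0_J0]

/-- a normalised intertwiner from the standard module is a frame -/
theorem frm_of_itw (h : PM P l il p J ρ j) (hU : ON P U) (hl : PL l il) (hs₀ : LF l il s₀)
    {A : S4 →L[ℝ] V} (i : Itw 1 J0 (fun a => r0 (tq U a)) (j0 il s₀) p J ρ j A)
    (n : hs A A = 16) :
    ∃ u : S4 →ₗᵢ[ℝ] V, u.toContinuousLinearMap = A ∧ Frm U s₀ p J ρ j u := by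
  have h0 := pm_std hU hl hs₀
  have i4 := (itw_iff_it4 h0 h hU hs₀ A).1 i
  have iso : ∀ y z, ⟪A y, A z⟫_ℝ = ⟪y, z⟫_ℝ := fun y z => by
    rw [i.inner h0 h hU hs₀, n]; simp
  refine ⟨(A : S4 →ₗ[ℝ] V).isometryOfInner iso, rfl, i.pl,
    i.onto h0 h hU hs₀ (by rw [n]; norm_num), fun a y => ?_, fun y => (i.J y).symm, fun y => ?_⟩
  · have := i4.r a y
    rw [hU.fr_std] at this
    exact this.symm
  · have := i4.k y
    rw [j0_self hl hs₀] at this
    exact this.symm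

theorem Frm.itw (h : PM P l il p J ρ j) (hU : ON P U) (hs₀ : LF l il s₀) {u : S4 →ₗᵢ[ℝ] V}
    (hu : Frm U s₀ p J ρ j u) :
    Itw 1 J0 (fun a => r0 (tq U a)) (j0 il s₀) p J ρ j u.toContinuousLinearMap ∧
      hs u.toContinuousLinearMap u.toContinuousLinearMap = 16 := by
  refine ⟨⟨hu.pu, fun _ => rfl, fun a y => (hu.rho_u h hU a y).symm, fun y => (hu.Ju y).symm,
    fun s y => (hu.j_u h hs₀ s y).symm⟩, ?_⟩
  rw [hs_eq_sum (stdOrthonormalBasis ℝ S4)]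
  simp [finrank_S4]

theorem ON.ct_back {o : ι → ι → ι → ι → ℝ} (hU : ON P U) (h : Alt o)
    (hP : ∀ a b c d, ∑ k, P a k * o k b c d = o a b c d) (a b c d : ι) :
    o a b c d = ct (fun a i => U i a) (ct U o) a b c d := by
  rw [ct_ct]; simp only [hU.P]; exact (h.ct_proj hP a b c d).symm

theorem ON.of {o : ι → ι → ι → ι → ℝ} (hU : ON P U) (h : Alt o)
    (hP : ∀ a b c d, ∑ k, P a k * o k b c d = o a b c d)
    (hn : ∑ a, ∑ b, ∑ c, ∑ d, o a b c d ^ 2 = 24) (h0 : 0 < ct U o 0 1 2 3) : OF P o U := by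
  have e1 : ∑ a, ∑ b, ∑ c, ∑ d, o a b c d ^ 2 = ∑ i, ∑ j, ∑ k, ∑ l, ct U o i j k l ^ 2 := by
    calc _ = ∑ a, ∑ b, ∑ c, ∑ d, ∑ i, ∑ j, ∑ k, ∑ l,
          U i a * U j b * U k c * U l d * o a b c d * ct U o i j k l := by
          refine sum_congr rfl fun a _ => sum_congr rfl fun b _ => sum_congr rfl fun c _ =>
            sum_congr rfl fun d _ => ?_
          rw [sq]
          nth_rewrite 2 [hU.ct_back h hP a b c d]
          generalize ct U o = O
          simp only [ct, mul_sum]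
          exact sum_congr rfl fun i _ => sum_congr rfl fun j _ => sum_congr rfl fun k _ =>
            sum_congr rfl fun l _ => by ring
      _ = _ := by
          rw [sum8]
          simp only [← sum_mul, sq]
          rfl
  rw [hn, (h.ct U).sum_sq] at e1
  have h3 : ct U o 0 1 2 3 = 1 := by nlinarith
  have e : ct U o = eps := by
    funext i j k l; rw [(h.ct U).eq_eps, h3, one_mul]
  exact ⟨hU.on, hU.P, fun i j k l => by rw [e],
    fun a b c d => by rw [← e]; exact hU.ct_back h hP a b c d⟩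

end pt

variable {E H : Type*} [NormedAddCommGroup E] [NormedSpace ℝ E] [TopologicalSpace H]
  {I : ModelWithCorners ℝ E H} {M : Type} [TopologicalSpace M] [ChartedSpace H M]

theorem smAt_inv_sqrt {f : M → ℝ} {x : M} (hf : ContMDiffAt I 𝓘(ℝ, ℝ) ∞ f x) (h : 0 < f x) :
    ContMDiffAt I 𝓘(ℝ, ℝ) ∞ (fun y => (√(f y))⁻¹) x :=
  ((contDiffAt_id.sqrt h.ne').inv (Real.sqrt_pos.2 h).ne').comp_contMDiffAt hf

/-- **an intertwiner at one point extends to a smooth intertwiner nearby** -/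
theorem exists_local_itw {x₀ : M} {P : M → ι → ι → ℝ} {l : M → L →L[ℝ] L} {il : L →L[ℝ] L}
    {p : M → V →L[ℝ] V} {J : V →L[ℝ] V} {ρ : M → ι → V →L[ℝ] V} {j : M → L →L[ℝ] V →L[ℝ] V}
    {p' : M → V' →L[ℝ] V'} {J' : V' →L[ℝ] V'} {ρ' : M → ι → V' →L[ℝ] V'}
    {j' : M → L →L[ℝ] V' →L[ℝ] V'}
    (h : ∀ᶠ x in 𝓝 x₀, (∃ U, ON (P x) U) ∧ PL (l x) il ∧
      PM (P x) (l x) il (p x) J (ρ x) (j x) ∧ PM (P x) (l x) il (p' x) J' (ρ' x) (j' x) ∧
      (∀ a, (smAt I x).mem fun y => ρ y a) ∧ (smAt I x).mem j ∧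
      (∀ a, (smAt I x).mem fun y => ρ' y a) ∧ (smAt I x).mem j')
    {A₀ : V →L[ℝ] V'} (i₀ : Itw (p x₀) J (ρ x₀) (j x₀) (p' x₀) J' (ρ' x₀) (j' x₀) A₀)
    (n₀ : hs A₀ A₀ = 16) :
    ∃ u : M → V →L[ℝ] V', u x₀ = A₀ ∧ ∀ᶠ x in 𝓝 x₀, ContMDiffAt I 𝓘(ℝ, V →L[ℝ] V') ∞ u x ∧
      Itw (p x) J (ρ x) (j x) (p' x) J' (ρ' x) (j' x) (u x) ∧ hs (u x) (u x) = 16 := by
  let a : M → V →L[ℝ] V' := fun x => Pi J (ρ x) (j x) J' (ρ' x) (j' x) A₀
  let c : M → ℝ := fun x => (1 / 16 : ℝ) • hs (a x) (a x)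
  have sa : ∀ᶠ x in 𝓝 x₀, (smAt I x).mem a ∧ (smAt I x).mem c := h.mono fun x hx => by
    obtain ⟨-, -, -, -, s1, s2, s3, s4⟩ := hx
    have := Kl.appc (Kl.Pi ((smAt I x).const J) s1 s2 ((smAt I x).const J') s3 s4) A₀
    exact ⟨this, Kl.csmul _ (Kl.hs this this)⟩
  have a0 : a x₀ = A₀ := by
    obtain ⟨⟨U, hU⟩, h2, h3, h4, -⟩ := h.self_of_nhds
    obtain ⟨s, hs⟩ := h2.exists_lf
    exact i₀.Pi h3 h4 hU hs
  have c0 : c x₀ = 1 := by simp only [c, a0, n₀]; norm_num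
  have cp : ∀ᶠ x in 𝓝 x₀, 0 < c x :=
    (ContMDiffAt.continuousAt sa.self_of_nhds.2).eventually (lt_mem_nhds (by rw [c0]; norm_num))
  refine ⟨fun x => (√(c x))⁻¹ • a x, by simp [c0, a0], ?_⟩
  filter_upwards [h, sa, cp] with x hx sx px
  obtain ⟨⟨U, hU⟩, h2, h3, h4, -⟩ := hx
  obtain ⟨s, hs⟩ := h2.exists_lf
  refine ⟨(smAt_inv_sqrt sx.2 px).smul sx.1, (itw_Pi h3 h4 hU hs A₀).smul _, ?_⟩
  have e : Std94.hs (a x) (a x) = 16 * c x := by simp only [c, smul_eq_mul]; ring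
  rw [hs_smul, hs_comm, hs_smul, e, ← mul_assoc, ← mul_inv, Real.mul_self_sqrt px.le]
  field_simp

end Crest.Agent.X212.Std94
end
end

-- ▼ part X212/Std94/Loc

/-! STD on `An/Gauge`, local part: any two modules are locally isomorphic; smooth local frames of
the background and of a module. -/

set_option autoImplicit false
set_option linter.unusedSectionVars false
noncomputable section
namespace Crest.Agent.X212.Std94
open Quaternion Module Finset An Filter Pj41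
open scoped Manifold ContDiff Topology InnerProductSpace

variable {E : Type} [NormedAddCommGroup E] [NormedSpace ℝ E] [FiniteDimensional ℝ E]
  [MeasurableSpace E] [BorelSpace E]
  {HM : Type} [TopologicalSpace HM] {I : ModelWithCorners ℝ E HM}
  {M : Type} [TopologicalSpace M] [ChartedSpace HM M] [IsManifold I ∞ M]
  [MeasurableSpace M] {ι : Type} [Fintype ι] {lam : Type} [Fintype lam]
  {B : Base M ι lam} {m m' : Md M ι lam} {O : Set M} {x x₀ : M}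

theorem Kl.rk2 {X L N : Type} [NormedAddCommGroup L] [InnerProductSpace ℝ L]
    [NormedAddCommGroup N] [NormedSpace ℝ N] {K : Kl X} (il : L →L[ℝ] L) {s : X → L}
    (hs : K.mem s) (a b : N) :
    K.mem fun x => (innerSL ℝ (s x)).smulRight a + (innerSL ℝ (il (s x))).smulRight b :=
  K.add (Kl.bil (ContinuousLinearMap.smulRightL ℝ L N)
      (Kl.clm (innerSL ℝ : L →L[ℝ] L →L[ℝ] ℝ) hs) (K.const a))
    (Kl.bil (ContinuousLinearMap.smulRightL ℝ L N)
      (Kl.clm (innerSL ℝ : L →L[ℝ] L →L[ℝ] ℝ) (Kl.clm il hs)) (K.const b))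

theorem Kl.j0 {X L : Type} [NormedAddCommGroup L] [InnerProductSpace ℝ L] {K : Kl X}
    (il : L →L[ℝ] L) {s : X → L} (hs : K.mem s) :
    K.mem (N := CL L (CL S4 S4)) fun x => j0 il (s x) :=
  Kl.rk2 (N := CL S4 S4) il hs k0 (J0 * k0)

theorem pmx_on (H : OKOn I B m O) (hx : x ∈ O) : PMx B m x :=
  ⟨H.Jsq, H.Jsk, H.psym x hx, H.pidem x hx, H.prk x hx, H.Jp x hx, H.cl x hx,
    fun a => H.ρsk a x hx, fun a => H.Jρ a x hx, H.jsym x hx, H.jJ x hx, H.jil x hx, H.jl x hx,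
    H.jsq x hx, H.pj x hx, fun a => H.jρ a x hx⟩

theorem hs_of_iso (H : PMx B m x) {A : CL m.V m'.V} (h : trn A ∘L A = m.p x) : hs A A = 16 := by
  rw [← H.prk, ← h, hs]
  rfl

/-- **an isomorphism at one point extends to a neighbourhood** -/
theorem exists_iso0_ext (hB : B.OK I) (hO : IsOpen O) (H : OKOn I B m O) (H' : OKOn I B m' O)
    (hx : x₀ ∈ O) {A : CL m.V m'.V} (i : Itx m m' x₀ A) (n : trn A ∘L A = m.p x₀) :
    ∃ O' u, IsOpen O' ∧ x₀ ∈ O' ∧ O' ⊆ O ∧ u x₀ = A ∧ Iso0 I m m' O' u := by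
  obtain ⟨u, u0, hu⟩ := exists_local_itw (I := I) (P := fun x a b => B.P a b x) (l := B.l)
    (il := B.il) (p := m.p) (ρ := fun x a => m.ρ a x) (p' := m'.p) (ρ' := fun x a => m'.ρ a x)
    ((hO.eventually_mem hx).mono fun x hx => ⟨exists_ON (hB.pr x) (hB.rk x), plx hB x,
      pmx_on H hx, pmx_on H' hx, fun a => H.sρ a x hx, H.sj x hx, fun a => H'.sρ a x hx,
      H'.sj x hx⟩) i (hs_of_iso (pmx_on H hx) n)
  obtain ⟨O', h1, h2, h3⟩ := mem_nhds_iff.1 (hu.and (hO.eventually_mem hx))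
  refine ⟨O', u, h2, h3, fun y hy => (h1 hy).2, u0, fun y hy => (h1 hy).1.1, fun y hy => ?_,
    fun y hy => ContinuousLinearMap.ext fun v => ((h1 hy).1.2.1.J v).symm,
    fun y hy b => ContinuousLinearMap.ext fun v => ((h1 hy).1.2.1.ρ b v).symm,
    fun y hy s => ContinuousLinearMap.ext fun v => ((h1 hy).1.2.1.j s v).symm⟩
  obtain ⟨⟨-, a, b⟩, c⟩ := h1 hy
  have := itx_norm hB (pmx_on H c) (pmx_on H' c) a
  rw [b, div_self (by norm_num), one_smul, one_smul, ← ad_trn] at this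
  exact ⟨this.1, this.2, ContinuousLinearMap.ext a.pr⟩

/-- **any two modules are locally isomorphic** -/
theorem exists_iso0 (hB : B.OK I) (hO : IsOpen O) (H : OKOn I B m O) (H' : OKOn I B m' O)
    (hx : x₀ ∈ O) : ∃ O' u, IsOpen O' ∧ x₀ ∈ O' ∧ O' ⊆ O ∧ Iso0 I m m' O' u := by
  obtain ⟨A, i, n, -⟩ := exists_itx hB (pmx_on H hx) (pmx_on H' hx)
  obtain ⟨O', u, a, b, c, -, d⟩ := exists_iso0_ext hB hO H H' hx i n
  exact ⟨O', u, a, b, c, d⟩

theorem exists_mEq (hB : B.OK I) (H : m.OK I B) (H' : m'.OK I B) (x₀ : M) :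
    ∃ O u, IsOpen O ∧ x₀ ∈ O ∧ MEq I m m' O id (fun x b a => B.P b a x) B.l u := by
  obtain ⟨O, u, a, b, -, d⟩ :=
    exists_iso0 hB isOpen_univ (OK.on H _) (OK.on H' _) (Set.mem_univ x₀)
  exact ⟨O, u, a, b, d.mEq (OK.on H _) (OK.on H' _)⟩

/-- two isomorphisms differ by a unit of `ℝ p ⊕ g` -/
theorem iso0_aut (hB : B.OK I) (H : PMx B m x) {u : M → CL m.V m.V} (h : Iso0 I m m O u)
    (hx : x ∈ O) : ∃ t : ℝ, ∃ ξ ∈ m.gS x, u x = t • m.p x + opL ξ ∧ t ^ 2 + ‖ξ‖ ^ 2 / 16 = 1 := by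
  have ap : ∀ {S T : En (Fin m.N)}, S = T → ∀ v, S v = T v := fun e v => by rw [e]
  obtain ⟨t, ξ, hξ, e⟩ := (itx_iff hB H (u x)).1 ⟨ap (h.iso x hx).left, ap (h.iso x hx).idem,
    fun a y => (ap (h.ρ x hx a) y).symm, fun y => (ap (h.J x hx) y).symm,
    fun s y => (ap (h.j x hx s) y).symm⟩
  refine ⟨t, ξ, hξ, e, ?_⟩
  have e1 := (h.iso x hx).src
  rw [ad_trn, e, trn_comm H t hξ] at e1
  have e2 := (comm_norm hB H t hξ).1.symm.trans e1
  have e3 := congrArg (fun T : En (Fin m.N) => LinearMap.trace ℝ _ (T : m.V →ₗ[ℝ] m.V)) e2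
  simp only [ContinuousLinearMap.toLinearMap_smul, map_smul, H.prk, smul_eq_mul] at e3
  linarith

/-- **smooth local frames of the background**, with prescribed value at `x₀` -/
theorem exists_bx_near (hB : B.OK I) {U₀ : Fin 4 → ι → ℝ} {t₀ : Eu lam} (h₀ : Bx B x₀ U₀ t₀) :
    ∃ (U : M → Fin 4 → ι → ℝ) (s : M → Eu lam), U x₀ = U₀ ∧ s x₀ = t₀ ∧ ∀ᶠ x in 𝓝 x₀,
      (∀ i a, FSm I (fun y => U y i a) x) ∧ FSm I s x ∧ Bx B x (U x) (s x) := by
  classical
  obtain ⟨O, a, o1, o2, -, a0, ha⟩ := exists_iso_near (I := I) (𝕜 := ℝ)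
    (p := fun _ => (1 : Matrix (Fin 4) (Fin 4) ℝ)) (q := fun y => Matrix.of fun a b => B.P a b y)
    isOpen_univ (fun _ _ => ⟨MSm.const _, Prj.one⟩)
    (fun y _ => ⟨fun a b => hB.sP a b y, by ext a b; simp [(hB.pr y).symm a b],
      by ext a b; simp [Matrix.mul_apply, (hB.pr y).idem]⟩) (Set.mem_univ x₀)
    (a₀ := Matrix.of fun a i => U₀ i a)
    ⟨by ext i k; simp [Matrix.mul_apply, h₀.of.on, Matrix.one_apply],
      by ext a b; simp [Matrix.mul_apply, h₀.of.P], by simp⟩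
  have on : ∀ y ∈ O, ON (fun a b => B.P a b y) fun i b => a y b i := fun y hy =>
    ⟨fun i k => by
      simpa [Matrix.mul_apply, Matrix.one_apply] using congrFun (congrFun (ha y hy).2.src i) k,
     fun b c => by simpa [Matrix.mul_apply] using congrFun (congrFun (ha y hy).2.tgt b) c⟩
  have U0 : (fun i b => a x₀ b i) = U₀ := by rw [a0]; rfl
  have c1 : (smAt I x₀).mem fun y =>
      ct (fun i b => a y b i) (fun a b c d => B.o a b c d y) 0 1 2 3 :=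
    Kl.fsum _ fun b => Kl.fsum _ fun c => Kl.fsum _ fun d => Kl.fsum _ fun e =>
      Kl.mul (Kl.mul (Kl.mul (Kl.mul ((ha x₀ o2).1 b 0) ((ha x₀ o2).1 c 1)) ((ha x₀ o2).1 d 2))
        ((ha x₀ o2).1 e 3)) (hB.so b c d e x₀)
  have c2 := (ContMDiffAt.continuousAt c1).eventually
    (lt_mem_nhds (a := 0) (by simp only [U0, h₀.of.ct, eps_0123]; norm_num))
  let n : M → ℝ := fun y => ⟪B.l y t₀, B.l y t₀⟫_ℝ
  have sl : ∀ y, (smAt I y).mem fun y => B.l y t₀ := fun y => Kl.appc (K := smAt I y) (hB.sl y) _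
  have sn : ∀ y, (smAt I y).mem n := fun y => Kl.inner (sl y) (sl y)
  have n0 : n x₀ = 1 := by simp [n, h₀.lf.ls, h₀.lf.n1]
  have c3 := (ContMDiffAt.continuousAt (sn x₀)).eventually
    (lt_mem_nhds (a := 0) (by rw [n0]; norm_num))
  refine ⟨fun y i b => a y b i, fun y => (√(n y))⁻¹ • B.l y t₀, U0, by simp [n0, h₀.lf.ls], ?_⟩
  filter_upwards [o1.mem_nhds o2, c2, c3] with y hy h2 h3
  refine ⟨fun i b => (ha y hy).1 b i, (smAt_inv_sqrt (sn y) h3).smul (sl y),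
    (on y hy).of (altx hB y) (fun a b c d => hB.oP a b c d y) (hB.onm y) h2,
    (plx hB y).lf ?_ ?_⟩
  · have e : √(n y) = ‖B.l y t₀‖ := (norm_eq_sqrt_real_inner _).symm
    rw [e]
    exact norm_smul_inv_norm (𝕜 := ℝ) fun h => by simp [n, h] at h3
  · rw [map_smul]
    exact congrArg _ (congrArg (fun T : En lam => T t₀) (hB.lidem y))

/-- **STD: smooth local frames**, with prescribed value at `x₀` -/
theorem exists_fx_ext (hB : B.OK I) (hO : IsOpen O) (H : OKOn I B m O) (hx : x₀ ∈ O)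
    {U : M → Fin 4 → ι → ℝ} {s : M → Eu lam}
    (h : ∀ᶠ x in 𝓝 x₀, (∀ i a, FSm I (fun y => U y i a) x) ∧ FSm I s x ∧ Bx B x (U x) (s x))
    {u₀ : S4 →ₗᵢ[ℝ] m.V} (h₀ : Fx B m x₀ (U x₀) (s x₀) u₀) :
    ∃ u : M → S4 →ₗᵢ[ℝ] m.V, u x₀ = u₀ ∧ ∀ᶠ x in 𝓝 x₀,
      FSm I (fun y => ((u y).toContinuousLinearMap : CL S4 m.V)) x ∧
        Fx B m x (U x) (s x) (u x) := by
  classical
  obtain ⟨i₀, n₀⟩ := Frm.itw h₀.pm h₀.of.toON h₀.lf h₀.nf
  obtain ⟨A, A0, hA⟩ := exists_local_itw (I := I) (V := S4) (P := fun x a b => B.P a b x)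
    (l := B.l) (il := B.il) (p := fun _ => 1) (ρ := fun x a => r0 (tq (U x) a))
    (j := fun x => j0 B.il (s x)) (p' := m.p) (ρ' := fun x a => m.ρ a x)
    ((h.and (hO.eventually_mem hx)).mono fun x ⟨⟨a, b, c⟩, hx⟩ => ⟨⟨_, c.of.toON⟩, plx hB x,
      pm_std c.of.toON (plx hB x) c.lf, pmx_on H hx,
      fun e => by
        simp only [r0_tq]
        exact Kl.fsum _ fun i => Kl.smul (K := smAt I x) (a i e) ((smAt I x).const _),
      Kl.j0 (K := smAt I x) B.il b,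
      fun a => H.sρ a x hx, H.sj x hx⟩) i₀ n₀
  have ex : ∀ᶠ x in 𝓝 x₀, ∃ w : S4 →ₗᵢ[ℝ] m.V, w.toContinuousLinearMap = A x ∧
      Fx B m x (U x) (s x) w := by
    filter_upwards [hA, h, hO.eventually_mem hx] with x h1 h2 h3
    obtain ⟨w, w1, w2⟩ := frm_of_itw (pmx_on H h3) h2.2.2.of.toON (plx hB x) h2.2.2.lf h1.2.1 h1.2.2
    exact ⟨w, w1, h2.2.2, pmx_on H h3, w2⟩
  let u : M → S4 →ₗᵢ[ℝ] m.V := fun x => if e : ∃ w : S4 →ₗᵢ[ℝ] m.V,
    w.toContinuousLinearMap = A x ∧ Fx B m x (U x) (s x) w then e.choose else u₀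
  have hu : ∀ᶠ x in 𝓝 x₀, (u x).toContinuousLinearMap = A x ∧ Fx B m x (U x) (s x) (u x) :=
    ex.mono fun x e => by simp only [u, dif_pos e]; exact e.choose_spec
  refine ⟨u, LinearIsometry.toContinuousLinearMap_injective (hu.self_of_nhds.1.trans A0), ?_⟩
  filter_upwards [hA, hu.eventually_nhds] with x h1 h2
  exact ⟨h1.1.congr_of_eventuallyEq (h2.mono fun y hy => hy.1), h2.self_of_nhds.2⟩

/-- **STD**: smooth local frames on an open neighbourhood -/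
theorem exists_fx_near (hB : B.OK I) (hO : IsOpen O) (H : OKOn I B m O) (hx : x₀ ∈ O) :
    ∃ (O' : Set M) (U : M → Fin 4 → ι → ℝ) (s : M → Eu lam) (u : M → S4 →ₗᵢ[ℝ] m.V),
      IsOpen O' ∧ x₀ ∈ O' ∧ O' ⊆ O ∧ ∀ x ∈ O', (∀ i a, FSm I (fun y => U y i a) x) ∧ FSm I s x ∧
        FSm I (fun y => ((u y).toContinuousLinearMap : CL S4 m.V)) x ∧
        Fx B m x (U x) (s x) (u x) := by
  obtain ⟨U₀, t₀, h₀⟩ := exists_bx hB x₀
  obtain ⟨U, s, -, -, h⟩ := exists_bx_near hB h₀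
  obtain ⟨u₀, k₀⟩ := h.self_of_nhds.2.2.exists_fx (pmx_on H hx)
  obtain ⟨u, -, k⟩ := exists_fx_ext hB hO H hx h k₀
  obtain ⟨O', h1, h2, h3⟩ := mem_nhds_iff.1 (h.and (k.and (hO.eventually_mem hx)))
  exact ⟨O', U, s, u, h2, h3, fun y hy => (h1 hy).2.2,
    fun y hy => ⟨(h1 hy).1.1, (h1 hy).1.2.1, (h1 hy).2.1⟩⟩

end Crest.Agent.X212.Std94
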