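import Crest.Agent.X212.Std94.Model

-- ▼ part X212/Std94/Four
section

/-! Normal form of a spin^u module in an orthonormal frame; intertwiners. -/

noncomputable section
namespace Crest.Agent.X212.Std94
open Quaternion Module
open scoped InnerProductSpace

variable {V V' : Type*} [NormedAddCommGroup V] [InnerProductSpace ℝ V]
  [NormedAddCommGroup V'] [InnerProductSpace ℝ V']

/-- the relations of a spin^u module in an orthonormal frame: projector `p` of rank `16`, complex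
structure `J`, real structure `k`, Clifford generators `r` -/
structure Q4 (p J k : V →L[ℝ] V) (r : Fin 4 → V →L[ℝ] V) : Prop where
  pp : ∀ v, p (p v) = p v
  ps : ∀ v w, ⟪p v, w⟫_ℝ = ⟪v, p w⟫_ℝ
  rk : finrank ℝ (p : V →ₗ[ℝ] V).range = 16
  JJ : ∀ v, J (J (p v)) = -p v
  Js : ∀ v w, ⟪J v, w⟫_ℝ = -⟪v, J w⟫_ℝ
  pJ : ∀ v, p (J v) = J (p v)
  rr : ∀ a v, r a (r a v) = -p v
  ra : ∀ a b, a ≠ b → ∀ v, r a (r b v) = -r b (r a v)
  pr : ∀ a v, p (r a v) = r a v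
  rp : ∀ a v, r a (p v) = r a v
  rs : ∀ a v w, ⟪r a v, w⟫_ℝ = -⟪v, r a w⟫_ℝ
  rJ : ∀ a v, r a (J v) = J (r a v)
  kk : ∀ v, k (k v) = p v
  ks : ∀ v w, ⟪k v, w⟫_ℝ = ⟪v, k w⟫_ℝ
  kJ : ∀ v, k (J v) = -J (k v)
  kr : ∀ a v, k (r a v) = r a (k v)

/-- `u` is an isometry of the standard module onto the range of `p` -/
structure NF (p J k : V →L[ℝ] V) (r : Fin 4 → V →L[ℝ] V) (u : S4 →ₗᵢ[ℝ] V) : Prop where
  pu : ∀ x, p (u x) = u x
  onto : ∀ y, ∃ x, u x = p y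
  ru : ∀ a x, r a (u x) = u (r0 (qe a) x)
  Ju : ∀ x, J (u x) = u (J0 x)
  ku : ∀ x, k (u x) = u (k0 x)

variable {p J k : V →L[ℝ] V} {r : Fin 4 → V →L[ℝ] V}

theorem Q4.kp (h : Q4 p J k r) (v : V) : k (p v) = k v := by
  have h1 : ⟪k (v - p v), k (v - p v)⟫_ℝ = 0 := by
    rw [h.ks, h.kk, map_sub, h.pp, sub_self, inner_zero_right]
  have h2 := inner_self_eq_zero.1 h1
  rw [map_sub, sub_eq_zero] at h2
  exact h2.symm

theorem Q4.pk (h : Q4 p J k r) (v : V) : p (k v) = k v := by rw [← h.kk, h.kk v, h.kp]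

/-- the volume element of the frame -/
def om4 (r : Fin 4 → V →L[ℝ] V) (v : V) : V := r 0 (r 1 (r 2 (r 3 v)))

section swaps
variable (h : Q4 p J k r)
include h
theorem Q4.s10 (v : V) : r 1 (r 0 v) = -r 0 (r 1 v) := h.ra _ _ (by decide) v
theorem Q4.s20 (v : V) : r 2 (r 0 v) = -r 0 (r 2 v) := h.ra _ _ (by decide) v
theorem Q4.s30 (v : V) : r 3 (r 0 v) = -r 0 (r 3 v) := h.ra _ _ (by decide) v
theorem Q4.s21 (v : V) : r 2 (r 1 v) = -r 1 (r 2 v) := h.ra _ _ (by decide) v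
theorem Q4.s31 (v : V) : r 3 (r 1 v) = -r 1 (r 3 v) := h.ra _ _ (by decide) v
theorem Q4.s32 (v : V) : r 3 (r 2 v) = -r 2 (r 3 v) := h.ra _ _ (by decide) v

theorem Q4.om_r (a : Fin 4) (v : V) : om4 r (r a v) = -r a (om4 r v) := by
  fin_cases a <;>
  simp [om4, h.s10, h.s20, h.s30, h.s21, h.s31, h.s32, h.rr, h.pr, h.rp]

theorem Q4.om_om (v : V) : om4 r (om4 r v) = p v := by
  simp [om4, h.s10, h.s20, h.s30, h.s21, h.s31, h.s32, h.rr, h.rp]

theorem Q4.om_s (v w : V) : ⟪om4 r v, w⟫_ℝ = ⟪v, om4 r w⟫_ℝ := by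
  simp [om4, h.rs, h.s10, h.s20, h.s30, h.s21, h.s31, h.s32]

theorem Q4.exists_gen : ∃ v : V, ‖v‖ = 1 ∧ p v = v ∧ k v = v ∧ om4 r v = -v := by
  have h1 : ∃ y : V, y ≠ 0 ∧ p y = y := by
    have : Nontrivial (p : V →ₗ[ℝ] V).range :=
      Module.nontrivial_of_finrank_pos (R := ℝ) (by rw [h.rk]; norm_num)
    obtain ⟨⟨_, z, rfl⟩, hz⟩ := exists_ne (0 : (p : V →ₗ[ℝ] V).range)
    exact ⟨p z, fun e => hz (Subtype.ext e), h.pp z⟩
  have h2 : ∃ y : V, y ≠ 0 ∧ p y = y ∧ k y = y := by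
    obtain ⟨y, y0, hy⟩ := h1
    by_cases e : y + k y = 0
    · have e' : k y = -y := eq_neg_of_add_eq_zero_right e
      refine ⟨J y, fun z => y0 ?_, by rw [h.pJ, hy], by rw [h.kJ, e', map_neg, neg_neg]⟩
      have := h.JJ y
      rw [hy, z, map_zero] at this
      exact neg_eq_zero.1 this.symm
    · exact ⟨y + k y, e, by rw [map_add, hy, h.pk], by rw [map_add, h.kk, hy, add_comm]⟩
  have h3 : ∃ y : V, y ≠ 0 ∧ p y = y ∧ k y = y ∧ om4 r y = -y := by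
    obtain ⟨y, y0, hy, ky⟩ := h2
    by_cases e : y - om4 r y = 0
    · have e' : om4 r y = y := (sub_eq_zero.1 e).symm
      refine ⟨r 0 y, fun z => y0 ?_, h.pr _ _, by rw [h.kr, ky], by rw [h.om_r, e']⟩
      have := h.rr 0 y
      rw [hy, z, map_zero] at this
      exact neg_eq_zero.1 this.symm
    · refine ⟨y - om4 r y, e, by simp [om4, hy, h.pr], by simp [om4, h.kr, ky], ?_⟩
      have : om4 r (y - om4 r y) = om4 r y - om4 r (om4 r y) := by simp [om4]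
      rw [this, h.om_om, hy, neg_sub]
  obtain ⟨y, y0, a, b, c⟩ := h3
  refine ⟨‖y‖⁻¹ • y, norm_smul_inv_norm (𝕜 := ℝ) y0, by simp [a], by simp [b], ?_⟩
  have : om4 r (‖y‖⁻¹ • y) = ‖y‖⁻¹ • om4 r y := by simp [om4]
  rw [this, c, smul_neg]

end swaps

/-- the quaternionic line through `v` -/
def phi (r : Fin 4 → V →L[ℝ] V) (v : V) : ℍ →ₗ[ℝ] V where
  toFun q := q.re • v + q.imI • r 0 (r 1 v) + q.imJ • r 0 (r 2 v) + q.imK • r 0 (r 3 v)
  map_add' a b := by simp [add_smul]; abel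
  map_smul' c a := by simp [mul_smul]

theorem phi_apply (v : V) (q : ℍ) : phi r v q =
    q.re • v + q.imI • r 0 (r 1 v) + q.imJ • r 0 (r 2 v) + q.imK • r 0 (r 3 v) := rfl

/-- **Normal form**, with a prescribed generator. -/
theorem Q4.nf_of_gen (h : Q4 p J k r) {v : V} (v1 : ‖v‖ = 1) (pv : p v = v) (kv : k v = v)
    (ov : om4 r v = -v) : ∃ u, NF p J k r u ∧ u e0 = v := by
  have t23 : r 2 (r 3 v) = r 0 (r 1 v) := by
    have := congrArg (fun y => r 0 (r 1 y)) ov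
    simpa [om4, h.s10, h.rr, h.pr, h.rp] using this
  have t12 : r 1 (r 2 v) = r 0 (r 3 v) := by
    have := congrArg (fun y => r 0 (r 2 y)) t23
    simpa [h.s20, h.s21, h.rr, h.pr, h.rp] using this.symm
  have t13 : r 1 (r 3 v) = -r 0 (r 2 v) := by
    have := congrArg (fun y => r 0 (r 3 y)) t23
    simp only [h.s32, h.s31, h.s30, h.rr, h.pr, h.rp, map_neg, neg_neg] at this
    rw [this, neg_neg]
  have A : ∀ a q, r a (phi r v q) = r 0 (phi r v (star (qe a) * q)) := fun a q => by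
    fin_cases a <;>
    · simp [phi_apply, qe, h.s10, h.s20, h.s30, h.s21, h.s31, h.s32, h.rr, h.pr, pv, t12, t13, t23]
      try module
  have pφ : ∀ q, p (phi r v q) = phi r v q := fun q => by simp [phi_apply, pv, h.pr]
  have kφ : ∀ q, k (phi r v q) = phi r v q := fun q => by simp [phi_apply, kv, h.kr]
  have oφ : ∀ q, om4 r (phi r v q) = -phi r v q := fun q => by
    have e : om4 r (phi r v q) = q.re • om4 r v + q.imI • om4 r (r 0 (r 1 v)) +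
        q.imJ • om4 r (r 0 (r 2 v)) + q.imK • om4 r (r 0 (r 3 v)) := by simp [phi_apply, om4]
    rw [e]
    simp only [h.om_r, ov, phi_apply, map_neg, neg_neg, smul_neg]
    abel
  have B : ∀ a q, r a (r 0 (phi r v q)) = -phi r v (qe a * q) := fun a q => by
    have e := A a (qe a * q)
    have n : star (qe a) * (qe a * q) = q := by
      fin_cases a <;> (ext <;> simp [qe])
    rw [n] at e
    rw [← e, h.rr, pφ]
  have vv : ⟪v, v⟫_ℝ = 1 := by simp [v1]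
  have z : ∀ a : Fin 4, a ≠ 0 → ⟪v, r 0 (r a v)⟫_ℝ = 0 := fun a ha => by
    have e : ⟪r 0 (r a v), v⟫_ℝ = -⟪v, r 0 (r a v)⟫_ℝ := by
      rw [h.rs, h.rs, h.ra _ _ ha, inner_neg_right, neg_neg]
    rw [real_inner_comm] at e
    linarith
  have z1 := z 1 (by decide)
  have z2 := z 2 (by decide)
  have z3 := z 3 (by decide)
  have iφ : ∀ q q', ⟪phi r v q, phi r v q'⟫_ℝ = ⟪q, q'⟫_ℝ := fun q q' => by
    simp only [phi_apply, inner_add_left, inner_add_right, real_inner_smul_left,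
      real_inner_smul_right, h.rs, h.s10, h.s20, h.s30, h.s21, h.s31, h.s32, h.rr, h.pr, pv,
      t12, t13, t23, map_neg, neg_neg, inner_neg_right, z1, z2, z3, vv, inner_q]
    ring
  have i1 : ∀ q q', ⟪phi r v q, r 0 (phi r v q')⟫_ℝ = 0 := fun q q' => by
    have e := h.om_s (phi r v q) (r 0 (phi r v q'))
    rw [oφ, h.om_r, oφ, map_neg, neg_neg, inner_neg_left] at e
    linarith
  have i2 : ∀ y y', k y = y → k y' = y' → ⟪y, J y'⟫_ℝ = 0 := fun y y' a b => by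
    have e := h.ks y (J y')
    rw [a, h.kJ, b, inner_neg_right] at e
    linarith
  have i3 : ∀ y y', p y' = y' → ⟪J y, J y'⟫_ℝ = ⟪y, y'⟫_ℝ := fun y y' b => by
    have := h.JJ y'
    rw [b] at this
    rw [h.Js, this, inner_neg_right, neg_neg]
  let w : ℍ → ℍ → V := fun a b => phi r v a + r 0 (phi r v b)
  have kw : ∀ a b, k (w a b) = w a b := fun a b => by simp [w, h.kr, kφ]
  have pw : ∀ a b, p (w a b) = w a b := fun a b => by simp [w, h.pr, pφ]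
  have iw : ∀ a b a' b', ⟪w a b, w a' b'⟫_ℝ = ⟪a, a'⟫_ℝ + ⟪b, b'⟫_ℝ := fun a b a' b' => by
    simp only [w, inner_add_left, inner_add_right, h.rs, i1, iφ, h.rr, pφ, inner_neg_right]
    ring
  have rw' : ∀ c a b, r c (w a b) = w (-(qe c * b)) (star (qe c) * a) := fun c a b => by
    simp only [w, map_add, A c a, B, map_neg]
    abel
  have wn : ∀ a b, w (-a) (-b) = -w a b := fun a b => by simp only [w, map_neg]; abel
  let U : S4 →ₗ[ℝ] V :=
    { toFun := fun x => w (x 0) (x 1) + J (w (x 2) (x 3))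
      map_add' := fun x y => by simp only [w, PiLp.add_apply, map_add]; abel
      map_smul' := fun c x => by simp [w] }
  have hU : ∀ x, U x = w (x 0) (x 1) + J (w (x 2) (x 3)) := fun x => rfl
  have iU : ∀ x y, ⟪U x, U y⟫_ℝ = ⟪x, y⟫_ℝ := fun x y => by
    have a1 := i2 _ _ (kw (x 0) (x 1)) (kw (y 2) (y 3))
    have a2 := i2 _ _ (kw (y 0) (y 1)) (kw (x 2) (x 3))
    rw [real_inner_comm] at a2
    rw [hU, hU, inner_add_left, inner_add_right (w (x 0) (x 1)), inner_add_right (J _), a1, a2,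
      i3 _ _ (pw _ _), iw, iw, inner4]
    ring
  have pU : ∀ x, p (U x) = U x := fun x => by rw [hU, map_add, h.pJ, pw, pw]
  refine ⟨U.isometryOfInner iU, ⟨pU, fun y => ?_, fun a x => ?_, fun x => ?_, fun x => ?_⟩, ?_⟩
  · have : FiniteDimensional ℝ (p : V →ₗ[ℝ] V).range := .of_finrank_pos (by rw [h.rk]; norm_num)
    have e : U.range = (p : V →ₗ[ℝ] V).range := by
      refine Submodule.eq_of_le_of_finrank_eq ?_ ?_
      · rintro _ ⟨x, rfl⟩; exact ⟨_, pU x⟩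
      · rw [h.rk, LinearMap.finrank_range_of_inj (f := U) (U.isometryOfInner iU).injective, finrank_S4]
    exact (e ▸ ⟨y, rfl⟩ : p y ∈ U.range)
  · change r a (U x) = U _
    rw [hU, hU, map_add, h.rJ, rw', rw']
    rfl
  · change J (U x) = U _
    have := h.JJ (w (x 2) (x 3))
    rw [pw] at this
    rw [hU, hU, map_add, this, add_comm, ← wn]
    rfl
  · change k (U x) = U _
    rw [hU, hU, map_add, h.kJ, kw, kw, ← map_neg, ← wn]
    rfl
  · change U e0 = v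
    simp [hU, w, e0, phi_apply]

/-- **Normal form.** -/
theorem Q4.exists_nf (h : Q4 p J k r) : ∃ u, NF p J k r u := by
  obtain ⟨v, a, b, c, d⟩ := h.exists_gen
  obtain ⟨u, hu, -⟩ := h.nf_of_gen a b c d
  exact ⟨u, hu⟩

/-- the standard module satisfies the relations -/
theorem q4_std : Q4 (ContinuousLinearMap.id ℝ S4) J0 k0 fun a => r0 (qe a) where
  pp _ := rfl
  ps _ _ := rfl
  rk := by
    rw [ContinuousLinearMap.coe_id, LinearMap.range_id, finrank_top, finrank_S4]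
  JJ := J0_J0
  Js := inner_J0
  pJ _ := rfl
  rr a v := by
    have e := r0_r0 (qe a) (qe a) v
    have n : ⟪qe a, qe a⟫_ℝ = 1 := by rw [inner_q]; fin_cases a <;> simp [qe]
    rw [n, ← two_smul ℝ] at e
    refine smul_right_injective S4 (two_ne_zero (α := ℝ)) (e.trans ?_)
    simp
  ra a b hab v := by
    have e := r0_r0 (qe a) (qe b) v
    have n : ⟪qe a, qe b⟫_ℝ = 0 := by
      fin_cases a <;> fin_cases b <;> first | exact absurd rfl hab | simp [qe, inner_q]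
    rw [n, mul_zero, zero_smul] at e
    exact eq_neg_of_add_eq_zero_left e
  pr _ _ := rfl
  rp _ _ := rfl
  rs a := inner_r0 _
  rJ a := r0_J0 _
  kk := k0_k0
  ks := inner_k0
  kJ := k0_J0
  kr a := k0_r0 _

variable {p' J' k' : V' →L[ℝ] V'} {r' : Fin 4 → V' →L[ℝ] V'} {u : S4 →ₗᵢ[ℝ] V}
  {u' : S4 →ₗᵢ[ℝ] V'}

/-- **Intertwiners** are quaternions. -/
theorem NF.exists_quat (h : NF p J k r u) (h' : NF p' J' k' r' u') (A : V →ₗ[ℝ] V')
    (hp : ∀ y, p' (A y) = A y) (hr : ∀ a y, A (r a y) = r' a (A y))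
    (hJ : ∀ y, A (J y) = J' (A y)) (hk : ∀ y, A (k y) = k' (A y)) :
    ∃ c, ∀ x, A (u x) = u' (Rm c x) := by
  choose f hf using fun x => h'.onto (A (u x))
  simp only [hp] at hf
  let B : S4 →ₗ[ℝ] S4 :=
    { toFun := f
      map_add' := fun x y => u'.injective (by simp only [map_add, hf])
      map_smul' := fun c x => u'.injective (by simp only [map_smul, hf, RingHom.id_apply]) }
  obtain ⟨c, hc⟩ := exists_Rm B
    (fun a x => u'.injective (by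
      change u' (f _) = u' (r0 _ (f _)); rw [← h'.ru, hf, hf, ← h.ru, hr]))
    (fun x => u'.injective (by change u' (f _) = u' (J0 (f _)); rw [← h'.Ju, hf, hf, ← h.Ju, hJ]))
    (fun x => u'.injective (by change u' (f _) = u' (k0 (f _)); rw [← h'.ku, hf, hf, ← h.ku, hk]))
  exact ⟨c, fun x => by rw [← hf, ← hc]; rfl⟩

end Crest.Agent.X212.Std94
end
end

-- ▼ part X212/Std94/Xi

/-! The quaternions acting between two modules in normal form. -/

set_option linter.unusedSectionVars false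
noncomputable section
namespace Crest.Agent.X212.Std94
open Quaternion Module
open scoped InnerProductSpace

variable {V V' V'' : Type*} [NormedAddCommGroup V] [InnerProductSpace ℝ V] [FiniteDimensional ℝ V]
  [NormedAddCommGroup V'] [InnerProductSpace ℝ V'] [FiniteDimensional ℝ V']
  [NormedAddCommGroup V''] [InnerProductSpace ℝ V''] [FiniteDimensional ℝ V'']

/-- the left inverse (adjoint) of a frame -/
def ui (u : S4 →ₗᵢ[ℝ] V) : V →L[ℝ] S4 :=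
  LinearMap.toContinuousLinearMap (LinearMap.adjoint u.toLinearMap)

theorem inner_ui (u : S4 →ₗᵢ[ℝ] V) (y : V) (x : S4) : ⟪ui u y, x⟫_ℝ = ⟪y, u x⟫_ℝ :=
  LinearMap.adjoint_inner_left u.toLinearMap x y

theorem inner_ui' (u : S4 →ₗᵢ[ℝ] V) (x : S4) (y : V) : ⟪x, ui u y⟫_ℝ = ⟪u x, y⟫_ℝ :=
  LinearMap.adjoint_inner_right u.toLinearMap x y

@[simp] theorem ui_u (u : S4 →ₗᵢ[ℝ] V) (x : S4) : ui u (u x) = x :=
  ext_inner_right ℝ fun y => by rw [inner_ui, u.inner_map_map]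

/-- `u' ∘ Rm c ∘ u*` -/
def Xi (u' : S4 →ₗᵢ[ℝ] V') (u : S4 →ₗᵢ[ℝ] V) : ℍ →ₗ[ℝ] V →L[ℝ] V' where
  toFun c := u'.toContinuousLinearMap ∘L Rm c ∘L ui u
  map_add' c d := by ext y; simp [Rm_add]
  map_smul' s c := by ext y; simp [Rm_smul]

theorem Xi_apply (u' : S4 →ₗᵢ[ℝ] V') (u : S4 →ₗᵢ[ℝ] V) (c : ℍ) (y : V) :
    Xi u' u c y = u' (Rm c (ui u y)) := rfl

theorem Xi_u (u' : S4 →ₗᵢ[ℝ] V') (u : S4 →ₗᵢ[ℝ] V) (c : ℍ) (x : S4) :
    Xi u' u c (u x) = u' (Rm c x) := by rw [Xi_apply, ui_u]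

theorem Xi_Xi (u'' : S4 →ₗᵢ[ℝ] V'') (u' : S4 →ₗᵢ[ℝ] V') (u : S4 →ₗᵢ[ℝ] V) (c d : ℍ) (y : V) :
    Xi u'' u' c (Xi u' u d y) = Xi u'' u (c * d) y := by
  simp only [Xi_apply, ui_u, Rm_mul]

theorem Xi_comp (u'' : S4 →ₗᵢ[ℝ] V'') (u' : S4 →ₗᵢ[ℝ] V') (u : S4 →ₗᵢ[ℝ] V) (c d : ℍ) :
    Xi u'' u' c ∘L Xi u' u d = Xi u'' u (c * d) := ContinuousLinearMap.ext (Xi_Xi u'' u' u c d)

theorem Xi_mul (u : S4 →ₗᵢ[ℝ] V) (c d : ℍ) : Xi u u c * Xi u u d = Xi u u (c * d) :=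
  Xi_comp u u u c d

theorem inner_Xi (u' : S4 →ₗᵢ[ℝ] V') (u : S4 →ₗᵢ[ℝ] V) (c : ℍ) (y : V) (z : V') :
    ⟪Xi u' u c y, z⟫_ℝ = ⟪y, Xi u u' (star c) z⟫_ℝ := by
  rw [Xi_apply, Xi_apply, ← inner_ui', inner_Rm, inner_ui]

theorem Xi_inj (u' : S4 →ₗᵢ[ℝ] V') (u : S4 →ₗᵢ[ℝ] V) : Function.Injective (Xi u' u) := by
  refine (injective_iff_map_eq_zero _).2 fun c h => ?_
  have h1 := Xi_u u' u c e0
  rw [h, zero_apply, eq_comm, map_eq_zero_iff _ u'.injective] at h1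
  have h2 := congrArg (fun y : S4 => y 0) h1
  simpa [Rm_coe, e0] using h2

variable {p J k : V →L[ℝ] V} {r : Fin 4 → V →L[ℝ] V} {u : S4 →ₗᵢ[ℝ] V}
  {p' J' k' : V' →L[ℝ] V'} {r' : Fin 4 → V' →L[ℝ] V'} {u' : S4 →ₗᵢ[ℝ] V'}

theorem NF.u_ui (h : NF p J k r u) (q : Q4 p J k r) (y : V) : u (ui u y) = p y := by
  obtain ⟨x, hx⟩ := h.onto y
  have : ui u y = x := ext_inner_right ℝ fun z => by
    rw [inner_ui, ← h.pu, ← q.ps, ← hx, u.inner_map_map]
  rw [this, hx]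

theorem NF.ui_p (h : NF p J k r u) (q : Q4 p J k r) (y : V) : ui u (p y) = ui u y := by
  rw [← h.u_ui q, ui_u]

theorem NF.ui_r (h : NF p J k r u) (q : Q4 p J k r) (a : Fin 4) (y : V) :
    ui u (r a y) = r0 (qe a) (ui u y) := by
  rw [← q.rp, ← h.u_ui q, h.ru, ui_u]

theorem NF.ui_k (h : NF p J k r u) (q : Q4 p J k r) (y : V) : ui u (k y) = k0 (ui u y) := by
  rw [← q.kp, ← h.u_ui q, h.ku, ui_u]

theorem NF.ui_J (h : NF p J k r u) (q : Q4 p J k r) (y : V) : ui u (J y) = J0 (ui u y) := by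
  rw [← h.ui_p q, q.pJ, ← h.u_ui q, h.Ju, ui_u]

theorem NF.Xi_one (h : NF p J k r u) (q : Q4 p J k r) : Xi u u 1 = p :=
  ContinuousLinearMap.ext fun y => by rw [Xi_apply, Rm_one, h.u_ui q]

theorem NF.Xi_coe (h : NF p J k r u) (q : Q4 p J k r) (t : ℝ) : Xi u u (t : ℍ) = t • p := by
  rw [← h.Xi_one q, ← map_smul]; congr 1; ext <;> simp

/-- intertwiners in a frame -/
structure It4 (p J k : V →L[ℝ] V) (r : Fin 4 → V →L[ℝ] V) (p' J' k' : V' →L[ℝ] V')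
    (r' : Fin 4 → V' →L[ℝ] V') (A : V →L[ℝ] V') : Prop where
  pl : ∀ y, p' (A y) = A y
  pr : ∀ y, A (p y) = A y
  r : ∀ a y, A (r a y) = r' a (A y)
  J : ∀ y, A (J y) = J' (A y)
  k : ∀ y, A (k y) = k' (A y)

theorem NF.it4_iff (h : NF p J k r u) (q : Q4 p J k r) (h' : NF p' J' k' r' u')
    (A : V →L[ℝ] V') : It4 p J k r p' J' k' r' A ↔ ∃ c, A = Xi u' u c := by
  constructor
  · intro i
    obtain ⟨c, hc⟩ := h.exists_quat h' (A : V →ₗ[ℝ] V') i.pl i.r i.J i.k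
    exact ⟨c, ContinuousLinearMap.ext fun y => by rw [Xi_apply, ← i.pr, ← h.u_ui q]; exact hc _⟩
  · rintro ⟨c, rfl⟩
    exact ⟨fun y => h'.pu _, fun y => by rw [Xi_apply, h.ui_p q, Xi_apply],
      fun a y => by rw [Xi_apply, h.ui_r q, Rm_r0, Xi_apply, h'.ru],
      fun y => by rw [Xi_apply, h.ui_J q, Rm_J0, Xi_apply, h'.Ju],
      fun y => by rw [Xi_apply, h.ui_k q, Rm_k0, Xi_apply, h'.ku]⟩

theorem skew_Xi_iff (u : S4 →ₗᵢ[ℝ] V) (c : ℍ) :
    (∀ v w, ⟪Xi u u c v, w⟫_ℝ = -⟪v, Xi u u c w⟫_ℝ) ↔ c.re = 0 := by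
  have e : (∀ v w, ⟪Xi u u c v, w⟫_ℝ = -⟪v, Xi u u c w⟫_ℝ) ↔ star c = -c := by
    refine ⟨fun h => Xi_inj u u (ContinuousLinearMap.ext fun w => ext_inner_left ℝ fun v => ?_),
      fun h v w => ?_⟩
    · rw [← inner_Xi, h, map_neg, neg_apply, inner_neg_right]
    · rw [inner_Xi, h, map_neg, neg_apply, inner_neg_right]
  rw [e, Quaternion.star_eq_neg]

theorem symm_Xi_iff (u : S4 →ₗᵢ[ℝ] V) (c : ℍ) :
    (∀ v w, ⟪Xi u u c v, w⟫_ℝ = ⟪v, Xi u u c w⟫_ℝ) ↔ c = c.re := by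
  have e : (∀ v w, ⟪Xi u u c v, w⟫_ℝ = ⟪v, Xi u u c w⟫_ℝ) ↔ star c = c := by
    refine ⟨fun h => Xi_inj u u (ContinuousLinearMap.ext fun w => ext_inner_left ℝ fun v => ?_),
      fun h v w => ?_⟩
    · rw [← inner_Xi, h]
    · rw [inner_Xi, h]
  rw [e, Quaternion.star_eq_self]

/-- the Hilbert-Schmidt product -/
def hs (A B : V →L[ℝ] V') : ℝ :=
  LinearMap.trace ℝ V (LinearMap.adjoint (A : V →ₗ[ℝ] V') ∘ₗ (B : V →ₗ[ℝ] V'))

theorem hs_eq_sum {κ : Type*} [Fintype κ] (b : OrthonormalBasis κ ℝ V) (A B : V →L[ℝ] V') :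
    hs A B = ∑ i, ⟪A (b i), B (b i)⟫_ℝ := by
  rw [hs, LinearMap.trace_eq_sum_inner _ b]
  refine Finset.sum_congr rfl fun i _ => ?_
  rw [LinearMap.comp_apply, LinearMap.adjoint_inner_right]
  rfl

theorem hs_comm (A B : V →L[ℝ] V') : hs A B = hs B A := by
  rw [hs_eq_sum (stdOrthonormalBasis ℝ V), hs_eq_sum (stdOrthonormalBasis ℝ V)]
  exact Finset.sum_congr rfl fun i _ => real_inner_comm _ _

theorem hs_add (A B C : V →L[ℝ] V') : hs (A + B) C = hs A C + hs B C := by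
  simp [hs_eq_sum (stdOrthonormalBasis ℝ V), inner_add_left, Finset.sum_add_distrib]

theorem hs_sub (A B C : V →L[ℝ] V') : hs (A - B) C = hs A C - hs B C := by
  simp [hs_eq_sum (stdOrthonormalBasis ℝ V), inner_sub_left, Finset.sum_sub_distrib]

theorem hs_neg (A C : V →L[ℝ] V') : hs (-A) C = -hs A C := by
  simp [hs_eq_sum (stdOrthonormalBasis ℝ V)]

theorem hs_smul (t : ℝ) (A C : V →L[ℝ] V') : hs (t • A) C = t * hs A C := by
  simp [hs_eq_sum (stdOrthonormalBasis ℝ V), inner_smul_left, Finset.mul_sum]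

theorem hs_sum {κ : Type*} (s : Finset κ) (A : κ → V →L[ℝ] V') (C : V →L[ℝ] V') :
    hs (∑ i ∈ s, A i) C = ∑ i ∈ s, hs (A i) C := by
  simp only [hs_eq_sum (stdOrthonormalBasis ℝ V), sum_apply, sum_inner]
  exact Finset.sum_comm

/-- moving factors to the other side -/
theorem hs_conj {X X' : V' →L[ℝ] V'} {Y Y' : V →L[ℝ] V}
    (hX : ∀ v w, ⟪X v, w⟫_ℝ = ⟪v, X' w⟫_ℝ) (hY : ∀ v w, ⟪Y v, w⟫_ℝ = ⟪v, Y' w⟫_ℝ)
    (A C : V →L[ℝ] V') : hs (X ∘L A ∘L Y) C = hs A (X' ∘L C ∘L Y') := by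
  have e : LinearMap.adjoint ((X ∘L A ∘L Y : V →L[ℝ] V') : V →ₗ[ℝ] V') =
      (Y' : V →ₗ[ℝ] V) ∘ₗ LinearMap.adjoint (A : V →ₗ[ℝ] V') ∘ₗ (X' : V' →ₗ[ℝ] V') := by
    symm
    rw [LinearMap.eq_adjoint_iff]
    intro v w
    simp only [LinearMap.comp_apply, ContinuousLinearMap.coe_coe, ContinuousLinearMap.comp_apply]
    rw [real_inner_comm, ← hY, real_inner_comm, LinearMap.adjoint_inner_left, real_inner_comm,
      ← hX, real_inner_comm]
    rfl
  rw [hs, hs, e, LinearMap.comp_assoc, LinearMap.trace_comp_comm']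
  rfl

theorem trace_Rm (c : ℍ) : LinearMap.trace ℝ S4 (Rm c : S4 →ₗ[ℝ] S4) = 16 * c.re := by
  have h1 : (Rm c : S4 →ₗ[ℝ] S4) = c.re • LinearMap.id + (Rm c.im : S4 →ₗ[ℝ] S4) := by
    refine LinearMap.ext fun x => ?_
    have : c = c.re • (1 : ℍ) + c.im := by ext <;> simp
    change Rm c x = c.re • x + Rm c.im x
    conv_lhs => rw [this]
    rw [Rm_add, Rm_smul, Rm_one]
  have h2 : LinearMap.trace ℝ S4 (Rm c.im : S4 →ₗ[ℝ] S4) = 0 := by
    rw [LinearMap.trace_eq_sum_inner _ (stdOrthonormalBasis ℝ S4)]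
    refine Finset.sum_eq_zero fun i _ => ?_
    have e := inner_Rm c.im (stdOrthonormalBasis ℝ S4 i) (stdOrthonormalBasis ℝ S4 i)
    have : star c.im = (-1 : ℝ) • c.im := by simp
    rw [this, Rm_smul, real_inner_smul_right, real_inner_comm] at e
    change ⟪_, Rm c.im _⟫_ℝ = 0
    linarith
  rw [h1, map_add, h2, map_smul, LinearMap.trace_id, finrank_S4]
  simp [mul_comm]

theorem trace_Xi (u : S4 →ₗᵢ[ℝ] V) (c : ℍ) :
    LinearMap.trace ℝ V (Xi u u c : V →ₗ[ℝ] V) = 16 * c.re := by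
  have e : (Xi u u c : V →ₗ[ℝ] V) =
      u.toLinearMap ∘ₗ ((Rm c : S4 →ₗ[ℝ] S4) ∘ₗ (ui u : V →ₗ[ℝ] S4)) := rfl
  rw [e, LinearMap.trace_comp_comm', ← trace_Rm]
  congr 1
  exact LinearMap.ext fun x => by simp

theorem hs_Xi (u' : S4 →ₗᵢ[ℝ] V') (u : S4 →ₗᵢ[ℝ] V) (c d : ℍ) :
    hs (Xi u' u c) (Xi u' u d) = 16 * ⟪c, d⟫_ℝ := by
  have e : LinearMap.adjoint (Xi u' u c : V →ₗ[ℝ] V') = (Xi u u' (star c) : V' →ₗ[ℝ] V) := by
    symm
    rw [LinearMap.eq_adjoint_iff]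
    intro v w
    have := inner_Xi u u' (star c) v w
    rwa [star_star] at this
  have e2 : (Xi u u' (star c) : V' →ₗ[ℝ] V) ∘ₗ (Xi u' u d : V →ₗ[ℝ] V') =
      (Xi u u (star c * d) : V →ₗ[ℝ] V) := LinearMap.ext (Xi_Xi u u' u _ _)
  rw [hs, e, e2, trace_Xi, inner_q]
  simp

end Crest.Agent.X212.Std94
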